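import Mathlib
import Vale.Agent.Results.P201.TwoTerm

set_option autoImplicit false

namespace Vale.Agent.Results.P194.TwoTerm

open MonoidAlgebra Finset

/-- In the group algebra of an arbitrary group over an arbitrary field, a right-invertible element
with at most two terms is invertible: `a * b = 1` implies `b * a = 1`. -/
theorem result {K G : Type*} [Field K] [Group G]
    (g h : G) (α β : K) (hα : α ≠ 0) (b : MonoidAlgebra K G)
    (hab : (single g α + single h β) * b = 1) : b * (single g α + single h β) = 1 := by
  classical
  set a : MonoidAlgebra K G := single g α + single h β with ha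
  set t : G := h⁻¹ * g with ht
  set ρ : K := -β / α with hρ
  -- coefficient form of a product `a * x`
  have hcoef : ∀ (x : MonoidAlgebra K G) (z : G),
      (a * x).coeff (g * z) = α * x.coeff z + β * x.coeff (t * z) := by
    intro x z
    rw [ha, add_mul, coeff_add, Finsupp.add_apply, coeff_single_mul_apply,
      coeff_single_mul_apply]
    have e1 : g⁻¹ * (g * z) = z := by group
    have e2 : h⁻¹ * (g * z) = t * z := by rw [ht]; group
    rw [e1, e2]
  have hcancel : ∀ x : MonoidAlgebra K G, a * x = 0 → x = 0 := by
    intro x hx
    have hrec : ∀ z, x.coeff z = ρ * x.coeff (t * z) := by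
      intro z
      have h1 := hcoef x z
      rw [hx] at h1
      simp only [coeff_zero, Finsupp.coe_zero, Pi.zero_apply] at h1
      rw [hρ]
      field_simp
      linear_combination -h1
    by_cases hord : orderOf t = 0
    · have hinf : ∀ n : ℕ, 0 < n → t ^ n ≠ 1 := orderOf_eq_zero_iff'.mp hord
      apply coeff_injective
      ext z
      have := Vale.Agent.Results.P201.TwoTerm.no_stable_left x t hinf (by
        intro z hz hz'
        apply hz
        rw [hrec z, hz', mul_zero]) z
      simpa using this
    · set m := orderOf t with hm
      have hpow : ∀ (k : ℕ) (z : G), x.coeff z = ρ ^ k * x.coeff (t ^ k * z) := by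
        intro k
        induction k with
        | zero => intro z; simp
        | succ k ih =>
          intro z
          rw [ih z, hrec (t ^ k * z), ← mul_assoc, ← mul_assoc, ← pow_succ, ← pow_succ']
      by_cases hρm : ρ ^ m = 1
      · exfalso
        have hb : ∀ z, α * b.coeff z + β * b.coeff (t * z) = if g * z = 1 then 1 else 0 := by
          intro z
          rw [← hcoef b z, hab]
          simp [MonoidAlgebra.one_def, Finsupp.single_apply, eq_comm]
        have htel : ∀ k : ℕ, ρ ^ (k + 1) * b.coeff (t ^ (k + 1) * g⁻¹) - ρ ^ k * b.coeff (t ^ k * g⁻¹)
            = -(ρ ^ k * α⁻¹ * (if t ^ k = 1 then 1 else 0)) := by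
          intro k
          have h1 := hb (t ^ k * g⁻¹)
          have e1 : t * (t ^ k * g⁻¹) = t ^ (k + 1) * g⁻¹ := by rw [← mul_assoc, ← pow_succ']
          have e2 : (g * (t ^ k * g⁻¹) = 1) ↔ t ^ k = 1 := by
            constructor
            · intro hh
              have : t ^ k = g⁻¹ * (g * (t ^ k * g⁻¹)) * g := by group
              rw [this, hh]; group
            · intro hh
              rw [hh]; group
          rw [e1] at h1
          simp only [e2] at h1
          rw [← h1, hρ, pow_succ]
          field_simp
          ring
        have hsum := Finset.sum_range_sub (fun k => ρ ^ k * b.coeff (t ^ k * g⁻¹)) m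
        simp only [htel] at hsum
        rw [hρm, hm, pow_orderOf_eq_one] at hsum
        simp only [pow_zero, one_mul, sub_self] at hsum
        rw [Finset.sum_neg_distrib, neg_eq_zero, Finset.sum_eq_single 0] at hsum
        · simp at hsum
          exact hα hsum
        · intro k hk hk0
          have : t ^ k ≠ 1 := pow_ne_one_of_lt_orderOf hk0 (Finset.mem_range.mp hk)
          rw [if_neg this]; simp
        · intro h0
          exact absurd (Finset.mem_range.mpr (Nat.pos_of_ne_zero hord)) h0
      · apply coeff_injective
        ext z
        have h1 := hpow m z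
        rw [hm, pow_orderOf_eq_one, one_mul] at h1
        have h2 : (1 - ρ ^ orderOf t) * x.coeff z = 0 := by linear_combination h1
        rcases mul_eq_zero.mp h2 with h3 | h3
        · exact absurd (sub_eq_zero.mp h3).symm hρm
        · simpa using h3
  have hfin : a * (b * a - 1) = 0 := by
    rw [mul_sub, ← mul_assoc, hab, one_mul, mul_one, sub_self]
  exact sub_eq_zero.mp (hcancel _ hfin)

end Vale.Agent.Results.P194.TwoTerm
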